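import Mathlib

namespace Vale.Agent.Results.P047.SubcubePartition

open Finset

/-- The sign `+1` or `-1` attached to a bit. -/
def sgn (b : Bool) : ℝ := if b then 1 else -1

/-- The level-one Fourier coefficient of `f` at coordinate `i`, i.e. `E[f(X) X_i]`
for `X` uniform on the cube `{-1,1}^n` (a point is coded by its bit vector). -/
noncomputable def fourierOne {n : ℕ} (f : (Fin n → Bool) → ℝ) (i : Fin n) : ℝ :=
  (1 / 2 ^ n : ℝ) * ∑ x : Fin n → Bool, f x * sgn (x i)

/-- `x` lies in the subcube that fixes the coordinates in `F` to the values given by `a`. -/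
abbrev InCube {n : ℕ} (F : Finset (Fin n)) (a : Fin n → Bool) (x : Fin n → Bool) : Prop :=
  ∀ i ∈ F, x i = a i

/-- flip coordinate `i` -/
def flip {n : ℕ} (i : Fin n) (x : Fin n → Bool) : Fin n → Bool := Function.update x i (!(x i))

lemma flip_flip {n : ℕ} (i : Fin n) (x : Fin n → Bool) : flip i (flip i x) = x := by
  funext k
  by_cases h : k = i
  · subst h; simp [flip]
  · simp [flip, h]

def flipEquiv {n : ℕ} (i : Fin n) : (Fin n → Bool) ≃ (Fin n → Bool) where
  toFun := flip i
  invFun := flip i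
  left_inv := flip_flip i
  right_inv := flip_flip i

lemma sum_eq_zero_of_flip {n : ℕ} (i : Fin n) (g : (Fin n → Bool) → ℝ)
    (h : ∀ x, g (flip i x) = - g x) : ∑ x, g x = 0 := by
  have h1 : ∑ x, g (flipEquiv i x) = ∑ x, g x := Equiv.sum_comp (flipEquiv i) g
  have h2 : ∑ x, g (flipEquiv i x) = - ∑ x, g x := by
    rw [← Finset.sum_neg_distrib]
    exact Finset.sum_congr rfl (fun x _ => h x)
  linarith

lemma sgn_flip_self {n : ℕ} (i : Fin n) (x : Fin n → Bool) : sgn (flip i x i) = - sgn (x i) := by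
  simp only [flip, Function.update_self, sgn]
  cases x i <;> simp

lemma sgn_flip_ne {n : ℕ} {i k : Fin n} (h : k ≠ i) (x : Fin n → Bool) :
    sgn (flip i x k) = sgn (x k) := by
  simp [flip, h]

lemma inCube_flip {n : ℕ} {F : Finset (Fin n)} {a : Fin n → Bool} {i : Fin n} (hi : i ∉ F)
    (x : Fin n → Bool) : InCube F a (flip i x) ↔ InCube F a x := by
  unfold InCube
  constructor
  · intro h k hk
    have hne : k ≠ i := fun e => hi (e ▸ hk)
    have := h k hk
    simpa [flip, hne] using this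
  · intro h k hk
    have hne : k ≠ i := fun e => hi (e ▸ hk)
    have := h k hk
    simpa [flip, hne] using this

lemma sgn_sq (b : Bool) : sgn b * sgn b = 1 := by
  cases b <;> simp [sgn]

/-- weight of the subcube at `x` -/
noncomputable def wt {n : ℕ} (F : Finset (Fin n)) (a : Fin n → Bool) (c : ℝ) (x : Fin n → Bool) : ℝ :=
  if InCube F a x then c else 0

lemma wt_flip {n : ℕ} {F : Finset (Fin n)} {a : Fin n → Bool} {i : Fin n} (hi : i ∉ F) (c : ℝ)
    (x : Fin n → Bool) : wt F a c (flip i x) = wt F a c x := by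
  unfold wt
  by_cases h : InCube F a x
  · rw [if_pos h, if_pos ((inCube_flip hi x).2 h)]
  · rw [if_neg h, if_neg (fun h' => h ((inCube_flip hi x).1 h'))]

lemma pair_zero {n : ℕ} (e : Fin n → ℝ) (F : Finset (Fin n)) (a : Fin n → Bool) (c : ℝ)
    {i k : Fin n} (hik : i ≠ k) (h : i ∉ F ∨ k ∉ F) :
    ∑ x, wt F a c x * ((e i * sgn (x i)) * (e k * sgn (x k))) = 0 := by
  rcases h with h | h
  · apply sum_eq_zero_of_flip i
    intro x
    rw [wt_flip h, sgn_flip_self, sgn_flip_ne (Ne.symm hik)]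
    ring
  · apply sum_eq_zero_of_flip k
    intro x
    rw [wt_flip h, sgn_flip_self, sgn_flip_ne hik]
    ring

lemma pair_zero' {n : ℕ} (e : Fin n → ℝ) {i k : Fin n} (hik : i ≠ k) :
    ∑ x : Fin n → Bool, ((e i * sgn (x i)) * (e k * sgn (x k))) = 0 := by
  apply sum_eq_zero_of_flip i
  intro x
  rw [sgn_flip_self, sgn_flip_ne (Ne.symm hik)]
  ring

/-- second moment of the (signed) fixed-coordinate sum on one subcube -/
lemma second_moment {n : ℕ} (e : Fin n → ℝ) (he : ∀ i, e i * e i = 1)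
    (F : Finset (Fin n)) (a : Fin n → Bool) (c : ℝ) :
    ∑ x, wt F a c x * (∑ i ∈ F, e i * sgn (x i)) ^ 2
      = (∑ x, wt F a c x * (F.card : ℝ))
        + ∑ i, ∑ k, (if i = k then 0
            else ∑ x, wt F a c x * ((e i * sgn (x i)) * (e k * sgn (x k)))) := by
  set T : Fin n → Fin n → ℝ :=
    fun i k => ∑ x, wt F a c x * ((e i * sgn (x i)) * (e k * sgn (x k))) with hT
  set U : Fin n → Fin n → ℝ := fun i k => if i = k then 0 else T i k with hUdef
  have hU : ∀ i k, (i ∉ F ∨ k ∉ F) → U i k = 0 := by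
    intro i k h
    by_cases hik : i = k
    · simp [hUdef, hik]
    · simp only [hUdef, if_neg hik, hT]
      exact pair_zero e F a c hik h
  have h1 : ∑ x, wt F a c x * (∑ i ∈ F, e i * sgn (x i)) ^ 2 = ∑ i ∈ F, ∑ k ∈ F, T i k := by
    simp only [hT]
    have : ∀ x : Fin n → Bool, wt F a c x * (∑ i ∈ F, e i * sgn (x i)) ^ 2
        = ∑ i ∈ F, ∑ k ∈ F, wt F a c x * ((e i * sgn (x i)) * (e k * sgn (x k))) := by
      intro x
      rw [sq, Finset.sum_mul_sum, Finset.mul_sum]
      refine Finset.sum_congr rfl (fun i _ => ?_)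
      rw [Finset.mul_sum]
    simp only [this]
    rw [Finset.sum_comm]
    refine Finset.sum_congr rfl (fun i _ => ?_)
    rw [Finset.sum_comm]
  have h2 : ∀ i k, T i k = (if i = k then ∑ x, wt F a c x else 0) + U i k := by
    intro i k
    by_cases hik : i = k
    · subst hik
      simp only [hUdef, hT, if_true, add_zero]
      refine Finset.sum_congr rfl (fun x _ => ?_)
      have : (e i * sgn (x i)) * (e i * sgn (x i)) = (e i * e i) * (sgn (x i) * sgn (x i)) := by
        ring
      rw [this, he, sgn_sq]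
      ring
    · simp [hUdef, hik]
  have h3 : ∑ i ∈ F, ∑ k ∈ F, U i k = ∑ i, ∑ k, U i k := by
    rw [← Finset.sum_subset (Finset.subset_univ F)
      (fun i _ hi => Finset.sum_eq_zero (fun k _ => hU i k (Or.inl hi)))]
    refine Finset.sum_congr rfl (fun i _ => ?_)
    exact Finset.sum_subset (Finset.subset_univ F) (fun k _ hk => hU i k (Or.inr hk))
  have h4 : ∑ i ∈ F, ∑ k ∈ F, (if i = k then ∑ x, wt F a c x else 0)
      = ∑ x, wt F a c x * (F.card : ℝ) := by
    have : ∀ i ∈ F, ∑ k ∈ F, (if i = k then ∑ x, wt F a c x else 0) = ∑ x, wt F a c x := by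
      intro i hi
      rw [Finset.sum_ite_eq]
      simp [hi]
    rw [Finset.sum_congr rfl this, Finset.sum_const, ← Finset.sum_mul, nsmul_eq_mul, mul_comm]
  rw [h1]
  simp only [h2, Finset.sum_add_distrib]
  rw [h3, h4]

lemma wt_nonneg {n : ℕ} (F : Finset (Fin n)) (a : Fin n → Bool) {c : ℝ} (hc : 0 ≤ c)
    (x : Fin n → Bool) : 0 ≤ wt F a c x := by
  unfold wt; split_ifs <;> simp [hc]

lemma free_zero {n : ℕ} (e : Fin n → ℝ) (f : (Fin n → Bool) → ℝ) (F : Finset (Fin n))
    (a : Fin n → Bool) (c : ℝ)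
    (hmono : c ≠ 0 → ∀ x y, InCube F a x → InCube F a y → f x = f y) {i : Fin n} (hi : i ∉ F) :
    ∑ x, wt F a c x * (f x * (e i * sgn (x i))) = 0 := by
  apply sum_eq_zero_of_flip i
  intro x
  rw [wt_flip hi, sgn_flip_self]
  by_cases hx : InCube F a x
  · by_cases hc : c = 0
    · simp [wt, hc]
    · rw [hmono hc (flip i x) x ((inCube_flip hi x).2 hx) hx]
      ring
  · simp [wt, hx]

lemma card_cube (n : ℕ) : ∑ _x : Fin n → Bool, (1 : ℝ) = 2 ^ n := by
  simp

/-- The signed version, from which the statement with absolute values follows. -/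
theorem core {n : ℕ} (e : Fin n → ℝ) (he : ∀ i, e i * e i = 1)
    (f : (Fin n → Bool) → ℝ) (hf : ∀ x, f x = 1 ∨ f x = -1)
    {ι : Type} [Fintype ι] (F : ι → Finset (Fin n)) (a : ι → Fin n → Bool) (w : ι → ℝ)
    (hw : ∀ j, 0 ≤ w j)
    (hcover : ∀ x, ∑ j, (if InCube (F j) (a j) x then w j else 0) = 1)
    (hmono : ∀ j, w j ≠ 0 → ∀ x y, InCube (F j) (a j) x → InCube (F j) (a j) y → f x = f y) :
    ∑ i, e i * fourierOne f i ≤ Real.sqrt ((1 / 2 ^ n : ℝ) *
        ∑ x, ∑ j, (if InCube (F j) (a j) x then w j * ((F j).card : ℝ) else 0)) := by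
  have hcov : ∀ x, ∑ j, wt (F j) (a j) (w j) x = 1 := hcover
  have hNpos : (0 : ℝ) < 2 ^ n := by positivity
  set P : ℝ := ∑ x, f x * ∑ i, e i * sgn (x i) with hPdef
  set T' : ℝ := ∑ j, ∑ x, wt (F j) (a j) (w j) x * ((F j).card : ℝ) with hT'
  have hL : ∑ i, e i * fourierOne f i = (1 / 2 ^ n : ℝ) * P := by
    unfold fourierOne
    have : ∀ i, e i * ((1 / 2 ^ n : ℝ) * ∑ x : Fin n → Bool, f x * sgn (x i))
        = (1 / 2 ^ n : ℝ) * ∑ x : Fin n → Bool, f x * (e i * sgn (x i)) := by
      intro i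
      rw [Finset.mul_sum, Finset.mul_sum, Finset.mul_sum]
      refine Finset.sum_congr rfl (fun x _ => ?_)
      ring
    simp only [this]
    rw [← Finset.mul_sum, Finset.sum_comm]
    congr 1
    refine Finset.sum_congr rfl (fun x _ => ?_)
    rw [Finset.mul_sum]
  have hP : P = ∑ j, ∑ x, wt (F j) (a j) (w j) x * (f x * ∑ i ∈ F j, e i * sgn (x i)) := by
    have e1 : P = ∑ j, ∑ x, wt (F j) (a j) (w j) x * (f x * ∑ i, e i * sgn (x i)) := by
      rw [Finset.sum_comm, hPdef]
      refine Finset.sum_congr rfl (fun x _ => ?_)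
      rw [← Finset.sum_mul, hcov x, one_mul]
    rw [e1]
    refine Finset.sum_congr rfl (fun j _ => ?_)
    have e2 : ∀ x : Fin n → Bool, wt (F j) (a j) (w j) x * (f x * ∑ i, e i * sgn (x i))
        = wt (F j) (a j) (w j) x * (f x * ∑ i ∈ F j, e i * sgn (x i))
          + ∑ i ∈ (F j)ᶜ, wt (F j) (a j) (w j) x * (f x * (e i * sgn (x i))) := by
      intro x
      rw [← Finset.sum_add_sum_compl (F j) (fun i => e i * sgn (x i)), mul_add, mul_add]
      congr 1
      rw [Finset.mul_sum, Finset.mul_sum]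
    simp only [e2, Finset.sum_add_distrib]
    rw [Finset.sum_comm]
    rw [Finset.sum_eq_zero (s := (F j)ᶜ), add_zero]
    intro i hi
    exact free_zero e f (F j) (a j) (w j) (hmono j) (Finset.mem_compl.1 hi)
  have hA : ∑ j, ∑ x, wt (F j) (a j) (w j) x * (f x) ^ 2 = 2 ^ n := by
    rw [Finset.sum_comm, ← card_cube n]
    refine Finset.sum_congr rfl (fun x _ => ?_)
    have : (f x) ^ 2 = 1 := by rcases hf x with h | h <;> rw [h] <;> norm_num
    simp only [this, mul_one, hcov x]
  have hB : ∑ j, ∑ x, wt (F j) (a j) (w j) x * (∑ i ∈ F j, e i * sgn (x i)) ^ 2 = T' := by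
    simp only [second_moment e he, Finset.sum_add_distrib]
    rw [← hT']
    have : ∑ j, ∑ i, ∑ k, (if i = k then 0
        else ∑ x, wt (F j) (a j) (w j) x * ((e i * sgn (x i)) * (e k * sgn (x k)))) = 0 := by
      rw [Finset.sum_comm]
      refine Finset.sum_eq_zero (fun i _ => ?_)
      rw [Finset.sum_comm]
      refine Finset.sum_eq_zero (fun k _ => ?_)
      by_cases hik : i = k
      · simp [hik]
      · simp only [if_neg hik]
        rw [Finset.sum_comm]
        rw [← pair_zero' e hik]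
        refine Finset.sum_congr rfl (fun x _ => ?_)
        rw [← Finset.sum_mul, hcov x, one_mul]
    rw [this, add_zero]
  have hCS : P ^ 2 ≤ 2 ^ n * T' := by
    rw [hP, ← hA, ← hB]
    rw [← Fintype.sum_prod_type', ← Fintype.sum_prod_type', ← Fintype.sum_prod_type']
    apply Finset.sum_sq_le_sum_mul_sum_of_sq_le_mul
    · intro p _
      exact mul_nonneg (wt_nonneg _ _ (hw _) _) (sq_nonneg _)
    · intro p _
      exact mul_nonneg (wt_nonneg _ _ (hw _) _) (sq_nonneg _)
    · intro p _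
      apply le_of_eq
      ring
  have hT'eq : ∑ x, ∑ j, (if InCube (F j) (a j) x then w j * ((F j).card : ℝ) else 0) = T' := by
    rw [hT', Finset.sum_comm]
    refine Finset.sum_congr rfl (fun j _ => Finset.sum_congr rfl (fun x _ => ?_))
    unfold wt
    split_ifs <;> simp
  rw [hT'eq, hL]
  refine le_trans (le_abs_self _) (Real.abs_le_sqrt ?_)
  have : ((1 / 2 ^ n : ℝ) * P) ^ 2 = (1 / 2 ^ n : ℝ) * ((1 / 2 ^ n : ℝ) * P ^ 2) := by ring
  rw [this]
  apply mul_le_mul_of_nonneg_left _ (by positivity)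
  rw [one_div, inv_mul_le_iff₀ hNpos]
  exact hCS

/-- **Main theorem.**  Let `f` be a Boolean function on the `n`-cube and let `(C_j, w_j)` be a
fractional partition of the cube into subcubes on which `f` is constant
(`w_j ≥ 0`, `∑_j w_j 1_{C_j} = 1`; an honest partition is the case `w_j = 1`).
Then `∑_i |f^(i)|` is at most the square root of the average codimension, and hence at most
`√d` if every subcube used fixes at most `d` coordinates. -/
theorem result {n : ℕ} (f : (Fin n → Bool) → ℝ) (hf : ∀ x, f x = 1 ∨ f x = -1)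
    {ι : Type} [Fintype ι] (F : ι → Finset (Fin n)) (a : ι → Fin n → Bool) (w : ι → ℝ)
    (hw : ∀ j, 0 ≤ w j)
    (hcover : ∀ x, ∑ j, (if InCube (F j) (a j) x then w j else 0) = 1)
    (hmono : ∀ j, w j ≠ 0 → ∀ x y, InCube (F j) (a j) x → InCube (F j) (a j) y → f x = f y) :
    (∑ i, |fourierOne f i| ≤ Real.sqrt ((1 / 2 ^ n : ℝ) *
        ∑ x, ∑ j, (if InCube (F j) (a j) x then w j * ((F j).card : ℝ) else 0)))
    ∧ ∀ d : ℕ, (∀ j, w j ≠ 0 → (F j).card ≤ d) → ∑ i, |fourierOne f i| ≤ Real.sqrt d := by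
  have hNpos : (0 : ℝ) < 2 ^ n := by positivity
  have hmain : ∑ i, |fourierOne f i| ≤ Real.sqrt ((1 / 2 ^ n : ℝ) *
        ∑ x, ∑ j, (if InCube (F j) (a j) x then w j * ((F j).card : ℝ) else 0)) := by
    have h := core (fun i => if 0 ≤ fourierOne f i then (1 : ℝ) else -1)
      (by intro i; split_ifs <;> norm_num) f hf F a w hw hcover hmono
    refine le_trans (le_of_eq ?_) h
    refine Finset.sum_congr rfl (fun i _ => ?_)
    split_ifs with h0
    · rw [abs_of_nonneg h0, one_mul]
    · rw [abs_of_neg (not_le.1 h0)]; ring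
  refine ⟨hmain, ?_⟩
  intro d hd
  refine le_trans hmain (Real.sqrt_le_sqrt ?_)
  rw [one_div, inv_mul_le_iff₀ hNpos, ← card_cube n, Finset.sum_mul]
  refine Finset.sum_le_sum (fun x _ => ?_)
  rw [one_mul, ← one_mul (d : ℝ), ← hcover x, Finset.sum_mul]
  refine Finset.sum_le_sum (fun j _ => ?_)
  by_cases hj : w j = 0
  · simp [hj]
  · split_ifs
    · exact mul_le_mul_of_nonneg_left (by exact_mod_cast hd j hj) (hw j)
    · simp

end Vale.Agent.Results.P047.SubcubePartition
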